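import Mathlib

/-!
Matrix algebras inside a C*-algebra with two Cuntz isometries.
-/

namespace Vale.Agent.P083

open scoped ComplexOrder

variable {B : Type*} [CStarAlgebra B]

/-- Two Cuntz isometries give Cuntz families of every size. -/
theorem exists_family (s₁ s₂ : B) (h₁ : star s₁ * s₁ = 1) (h₂ : star s₂ * s₂ = 1)
    (h : s₁ * star s₁ + s₂ * star s₂ = 1) :
    ∀ n : ℕ, ∃ t : Fin (n + 1) → B,
      (∀ i j, star (t i) * t j = if i = j then 1 else 0) ∧ ∑ i, t i * star (t i) = 1 := by
  have h12 : star s₁ * s₂ = 0 := by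
    have e := congrArg (fun x => star s₁ * x * s₂) h
    simp only [mul_add, add_mul, mul_one] at e
    rw [← mul_assoc (star s₁) s₁, h₁, one_mul, ← mul_assoc (star s₁) s₂,
      mul_assoc (star s₁ * s₂) (star s₂), h₂, mul_one] at e
    exact add_eq_left.mp (e.trans rfl)
  have h21 : star s₂ * s₁ = 0 := by
    have := congrArg star h12
    simpa using this
  intro n
  induction n with
  | zero => exact ⟨fun _ => 1, fun i j => by
      fin_cases i; fin_cases j; simp, by simp⟩
  | succ n ih =>
    obtain ⟨t, ht, hsum⟩ := ih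
    refine ⟨Fin.cons s₁ fun i => s₂ * t i, ?_, ?_⟩
    · intro i j
      refine Fin.cases ?_ (fun i => ?_) i <;> refine Fin.cases ?_ (fun j => ?_) j
      · simp [h₁]
      · simp [(Fin.succ_ne_zero j).symm, ← mul_assoc, h12]
      · simp [Fin.succ_ne_zero i, mul_assoc, h21]
      · simp only [Fin.cons_succ, star_mul, Fin.succ_inj]
        rw [mul_assoc, ← mul_assoc (star s₂), h₂, one_mul, ht]
    · rw [Fin.sum_univ_succ]
      simp only [Fin.cons_zero, Fin.cons_succ, star_mul]
      have e : ∀ i, s₂ * t i * (star (t i) * star s₂) = s₂ * (t i * star (t i)) * star s₂ :=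
        fun i => by simp [mul_assoc]
      simp_rw [e]
      rw [← Finset.sum_mul, ← Finset.mul_sum, hsum, mul_one, h]

/-- Unital embeddings of matrix algebras, isometric when the algebra is nontrivial. -/
theorem exists_matrix_embedding [Nontrivial B] (s₁ s₂ : B) (h₁ : star s₁ * s₁ = 1)
    (h₂ : star s₂ * s₂ = 1) (h : s₁ * star s₁ + s₂ * star s₂ = 1) (n : ℕ) :
    ∃ π : CStarMatrix (Fin (n + 1)) (Fin (n + 1)) ℂ →⋆ₐ[ℂ] B, ∀ x, ‖π x‖ = ‖x‖ := by
  obtain ⟨t, ht, hsum⟩ := exists_family s₁ s₂ h₁ h₂ h n
  let f : CStarMatrix (Fin (n + 1)) (Fin (n + 1)) ℂ → B := fun M =>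
    ∑ i, ∑ j, M i j • (t i * star (t j))
  have hsand : ∀ (M : CStarMatrix (Fin (n + 1)) (Fin (n + 1)) ℂ) a b,
      star (t a) * f M * t b = M a b • (1 : B) := by
    intro M a b
    simp only [f, Finset.mul_sum, Finset.sum_mul]
    have e : ∀ i j, star (t a) * (M i j • (t i * star (t j))) * t b
        = M i j • ((star (t a) * t i) * (star (t j) * t b)) := fun i j => by
      rw [mul_smul_comm, smul_mul_assoc]; simp [mul_assoc]
    simp_rw [e, ht]
    simp
  have hinj : Function.Injective f := by
    intro M N hMN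
    ext a b
    have := congrArg (fun x => star (t a) * x * t b) hMN
    simp only [hsand] at this
    exact smul_left_injective ℂ one_ne_zero this
  have hmul : ∀ M N, f (M * N) = f M * f N := by
    intro M N
    simp only [f, Finset.sum_mul, Finset.mul_sum]
    have e : ∀ i j k l, (M i j • (t i * star (t j))) * (N k l • (t k * star (t l)))
        = (M i j * N k l) • (t i * (star (t j) * t k) * star (t l)) := fun i j k l => by
      rw [smul_mul_smul_comm]; simp [mul_assoc]
    simp_rw [e, ht]
    simp [CStarMatrix.mul_apply, Finset.sum_smul]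
    calc _ = ∑ x, ∑ k, ∑ j, (M x j * N j k) • (t x * star (t k)) := rfl
      _ = _ := by
        conv_rhs =>
          enter [2, y]
          rw [Finset.sum_comm]
        conv_rhs => rw [Finset.sum_comm]
        exact Finset.sum_congr rfl fun x _ => Finset.sum_comm
  have hone : f 1 = 1 := by
    simp [f, CStarMatrix.one_apply, hsum]
  have hadd : ∀ M N, f (M + N) = f M + f N := by
    intro M N
    simp [f, add_smul, Finset.sum_add_distrib]
  have hzero : f 0 = 0 := by simp [f]
  have hstar : ∀ M, f (star M) = star (f M) := by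
    intro M
    simp only [f, star_sum, star_smul, star_mul, star_star, CStarMatrix.star_apply]
    exact Finset.sum_comm
  have hcomm : ∀ r : ℂ, f (algebraMap ℂ _ r) = algebraMap ℂ B r := by
    intro r
    rw [Algebra.algebraMap_eq_smul_one, Algebra.algebraMap_eq_smul_one, ← hone]
    simp [f, Finset.smul_sum, smul_smul, CStarMatrix.one_apply]
  refine ⟨{ toFun := f, map_one' := hone, map_mul' := hmul, map_zero' := hzero,
            map_add' := hadd, commutes' := hcomm, map_star' := hstar }, fun x => ?_⟩
  exact NonUnitalStarAlgHom.norm_map _ hinj x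

end Vale.Agent.P083
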